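import Mathlib

/-!
# Row 76, lemma St (abstract form): a lossless `TT*` bound with `L^p` weights

`G i y` is a family of vectors of a Hilbert space (`i` a time window, `y` a point of a measure
space).  For each `i` Bessel's inequality holds; the Gram kernel is bounded by
`A i j * exp (-|κ y - κ y'|)`.  Then weights `V i` with `∫_{κ = k} V i ^ p ≤ M i` satisfy
`∑ i, ∫ V i |⟪G i y, h⟫|² ≤ C D ‖h‖²`, `D = sup_i ∑ j, (A i j ^ 2 * M i * M j) ^ (1/(2p))`.
Proof: dyadic level sets, a Hankel matrix and Schur's test; no interpolation theorem.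
-/

set_option autoImplicit false

open MeasureTheory Finset
open scoped ENNReal InnerProductSpace

namespace Crest.Agent.N76.St

/-- a geometric sum over a finite set of integers -/
lemma sum_rpow_abs_le {r : ℝ} (hr0 : 0 < r) (hr1 : r < 1) (s : Finset ℤ) (x : ℝ) :
    ∑ j ∈ s, r ^ |(j : ℝ) - x| ≤ 2 / (1 - r) := by
  have key : ∀ (t : Finset ℤ) (φ : ℤ → ℕ), Set.InjOn φ t → ∑ j ∈ t, r ^ φ j ≤ 1 / (1 - r) := by
    intro t φ hφ
    rw [← sum_image (f := fun n : ℕ => r ^ n) hφ, one_div, ← tsum_geometric_of_lt_one hr0.le hr1]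
    exact (summable_geometric_of_lt_one hr0.le hr1).sum_le_tsum _ fun _ _ => by positivity
  rw [← sum_filter_add_sum_filter_not s fun j : ℤ => x ≤ (j : ℝ)]
  have h1 : ∑ j ∈ s.filter (fun j : ℤ => x ≤ (j : ℝ)), r ^ |(j : ℝ) - x| ≤ 1 / (1 - r) := by
    refine le_trans (sum_le_sum fun j hj => ?_) (key _ (fun j => (j - ⌈x⌉).toNat) ?_)
    · have hj' := (mem_filter.1 hj).2
      have h2 : ⌈x⌉ ≤ j := Int.ceil_le.2 hj'
      rw [← Real.rpow_natCast]
      refine Real.rpow_le_rpow_of_exponent_ge hr0 hr1.le ?_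
      have h3 : (((j - ⌈x⌉).toNat : ℤ) : ℝ) = ((j - ⌈x⌉ : ℤ) : ℝ) := by
        rw [Int.toNat_of_nonneg (by omega)]
      push_cast at h3
      rw [h3, abs_of_nonneg (by linarith)]
      linarith [Int.le_ceil x]
    · intro a ha b hb hab
      have h2 : ⌈x⌉ ≤ a := Int.ceil_le.2 (mem_filter.1 ha).2
      have h3 : ⌈x⌉ ≤ b := Int.ceil_le.2 (mem_filter.1 hb).2
      simp only at hab
      omega
  have h2 : ∑ j ∈ s.filter (fun j : ℤ => ¬ x ≤ (j : ℝ)), r ^ |(j : ℝ) - x| ≤ 1 / (1 - r) := by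
    refine le_trans (sum_le_sum fun j hj => ?_) (key _ (fun j => (⌊x⌋ - j).toNat) ?_)
    · have hj' := le_of_not_ge (mem_filter.1 hj).2
      have h2 : j ≤ ⌊x⌋ := Int.le_floor.2 hj'
      rw [← Real.rpow_natCast]
      refine Real.rpow_le_rpow_of_exponent_ge hr0 hr1.le ?_
      have h3 : (((⌊x⌋ - j).toNat : ℤ) : ℝ) = ((⌊x⌋ - j : ℤ) : ℝ) := by
        rw [Int.toNat_of_nonneg (by omega)]
      push_cast at h3
      rw [h3, abs_of_nonpos (by linarith)]
      linarith [Int.floor_le x]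
    · intro a ha b hb hab
      have h2 : a ≤ ⌊x⌋ := Int.le_floor.2 (le_of_not_ge (mem_filter.1 ha).2)
      have h3 : b ≤ ⌊x⌋ := Int.le_floor.2 (le_of_not_ge (mem_filter.1 hb).2)
      simp only at hab
      omega
  calc _ ≤ 1 / (1 - r) + 1 / (1 - r) := add_le_add h1 h2
    _ = _ := by ring

/-- the Hankel sum -/
lemma hankel {p : ℝ} (hp : 1 < p) : ∃ C : ℝ, 0 < C ∧ ∀ (x : ℝ) (l : ℤ) (s : Finset ℤ), 0 ≤ x →
    ∑ m ∈ s, (2 : ℝ) ^ (((l : ℝ) + m) / 2) * min 1 (x * 2 ^ (-(((l : ℝ) + m) / 2 * p))) ≤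
      C * x ^ (1 / p) := by
  set σ : ℝ := min 1 (p - 1) / 2 with hσ
  have hσ0 : 0 < σ := by have := lt_min one_pos (sub_pos.2 hp); positivity
  have hσ1 : σ ≤ 1 / 2 := by have := min_le_left 1 (p - 1); linarith
  have hσ2 : σ ≤ (p - 1) / 2 := by have := min_le_right 1 (p - 1); linarith
  have hr1 : (2 : ℝ) ^ (-σ) < 1 := Real.rpow_lt_one_of_one_lt_of_neg (by norm_num) (by linarith)
  have hr0 : (0 : ℝ) < 2 ^ (-σ) := by positivity
  refine ⟨2 / (1 - 2 ^ (-σ)), by have := sub_pos.2 hr1; positivity, fun x l s hx => ?_⟩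
  rcases hx.eq_or_lt with rfl | hx
  · rw [Real.zero_rpow (one_div_pos.2 (by linarith : (0 : ℝ) < p)).ne']; simp
  set u : ℝ := Real.logb 2 x / p with hu
  have hp0 : 0 < p := by linarith
  have hxu : x = 2 ^ (u * p) := by
    rw [hu, div_mul_cancel₀ _ hp0.ne', Real.rpow_logb (by norm_num) (by norm_num) hx]
  have hx1 : x ^ (1 / p) = 2 ^ u := by
    rw [hxu, ← Real.rpow_mul (by norm_num)]; congr 1; field_simp
  rw [hx1]
  refine le_trans ?_ (mul_le_mul_of_nonneg_right (sum_rpow_abs_le hr0 hr1 s (2 * u - l))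
    (by positivity))
  rw [sum_mul]
  refine sum_le_sum fun m _ => ?_
  rw [← Real.rpow_mul (by norm_num), ← Real.rpow_add (by norm_num)]
  rcases le_total ((m : ℝ) - (2 * u - l)) 0 with h | h
  · refine (mul_le_of_le_one_right (by positivity) (min_le_left _ _)).trans ?_
    refine Real.rpow_le_rpow_of_exponent_le (by norm_num) ?_
    rw [abs_of_nonpos h]; nlinarith
  · refine (mul_le_mul_of_nonneg_left (min_le_right _ _) (by positivity)).trans ?_
    rw [hxu, ← Real.rpow_add (by norm_num), ← Real.rpow_add (by norm_num)]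
    refine Real.rpow_le_rpow_of_exponent_le (by norm_num) ?_
    rw [abs_of_nonneg h]; nlinarith

variable {H : Type*} [NormedAddCommGroup H] [InnerProductSpace ℂ H]

/-- `TT*` and Schur's test for a finite family -/
lemma schur_fin {α : Type*} (s : Finset α) (F : α → H) (h : H) (a w : α → ℝ) (k : α → α → ℝ)
    {D : ℝ} (hD : 0 ≤ D) (hw : ∀ x ∈ s, 0 ≤ w x) (hF : ∀ x ∈ s, (⟪F x, h⟫_ℂ).re = a x ^ 2)
    (hk0 : ∀ x ∈ s, ∀ y ∈ s, 0 ≤ k x y) (hks : ∀ x ∈ s, ∀ y ∈ s, k x y = k y x)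
    (hk : ∀ x ∈ s, ∀ y ∈ s, w x * w y * ‖⟪F x, F y⟫_ℂ‖ ≤ k x y * (a x * a y))
    (hrow : ∀ x ∈ s, ∑ y ∈ s, k x y ≤ D) : ∑ x ∈ s, w x ^ 2 * a x ^ 2 ≤ D * ‖h‖ ^ 2 := by
  set S := ∑ x ∈ s, w x ^ 2 * a x ^ 2 with hS
  set Φ : H := ∑ x ∈ s, ((w x ^ 2 : ℝ) : ℂ) • F x with hΦ
  have hS0 : 0 ≤ S := sum_nonneg fun _ _ => by positivity
  have h1 : S ≤ ‖Φ‖ * ‖h‖ := by
    refine le_trans (le_of_eq ?_) ((Complex.re_le_norm _).trans (norm_inner_le_norm (𝕜 := ℂ) Φ h))
    rw [hΦ, sum_inner, Complex.re_sum]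
    refine sum_congr rfl fun x hx => ?_
    rw [inner_smul_left, Complex.conj_ofReal, Complex.re_ofReal_mul, hF x hx]
  have h2 : ‖Φ‖ ^ 2 ≤ D * S := by
    have e1 : ‖Φ‖ ^ 2 ≤ ∑ x ∈ s, ∑ y ∈ s, k x y * ((w x * a x) * (w y * a y)) := by
      rw [← inner_self_eq_norm_sq (𝕜 := ℂ)]
      refine (Complex.re_le_norm _).trans ?_
      rw [hΦ, sum_inner]
      refine (norm_sum_le _ _).trans (sum_le_sum fun x hx => ?_)
      rw [inner_sum]
      refine (norm_sum_le _ _).trans (sum_le_sum fun y hy => ?_)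
      rw [inner_smul_left, inner_smul_right, Complex.conj_ofReal, norm_mul, norm_mul,
        Complex.norm_real, Complex.norm_real, Real.norm_of_nonneg (sq_nonneg _),
        Real.norm_of_nonneg (sq_nonneg _)]
      have := mul_le_mul_of_nonneg_left (hk x hx y hy) (mul_nonneg (hw x hx) (hw y hy))
      nlinarith
    have e2 : ∑ x ∈ s, ∑ y ∈ s, k x y * (w y * a y) ^ 2 =
        ∑ x ∈ s, ∑ y ∈ s, k x y * (w x * a x) ^ 2 := by
      rw [sum_comm]
      exact sum_congr rfl fun x hx => sum_congr rfl fun y hy => by rw [hks y hy x hx]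
    have e3 : ∑ x ∈ s, ∑ y ∈ s, k x y * (w x * a x) ^ 2 ≤ D * S := by
      rw [hS, mul_sum]
      refine sum_le_sum fun x hx => ?_
      rw [← sum_mul, mul_pow]
      exact mul_le_mul_of_nonneg_right (hrow x hx) (by positivity)
    have e4 : 2 * ∑ x ∈ s, ∑ y ∈ s, k x y * ((w x * a x) * (w y * a y)) ≤
        ∑ x ∈ s, ∑ y ∈ s, k x y * (w x * a x) ^ 2 + ∑ x ∈ s, ∑ y ∈ s, k x y * (w y * a y) ^ 2 := by
      rw [← sum_add_distrib, mul_sum]
      refine sum_le_sum fun x hx => ?_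
      rw [← sum_add_distrib, mul_sum]
      refine sum_le_sum fun y hy => ?_
      nlinarith [mul_nonneg (hk0 x hx y hy) (sq_nonneg (w x * a x - w y * a y))]
    linarith
  rcases hS0.eq_or_lt with h0 | h0
  · rw [← h0]; positivity
  · have h3 : S ^ 2 ≤ D * S * ‖h‖ ^ 2 :=
      calc S ^ 2 ≤ (‖Φ‖ * ‖h‖) ^ 2 := by gcongr
        _ = ‖Φ‖ ^ 2 * ‖h‖ ^ 2 := by ring
        _ ≤ _ := by gcongr
    nlinarith

variable [CompleteSpace H] {Y : Type*} [MeasurableSpace Y] {μ : Measure Y}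

/-- the synthesis of the coefficients of `h` on a set of finite measure -/
noncomputable def syn (μ : Measure Y) (G : Y → H) (h : H) (E : Set Y) : H :=
  ∫ y in E, ⟪G y, h⟫_ℂ • G y ∂μ

/-- the energy of the coefficients of `h` on a set -/
noncomputable def en (μ : Measure Y) (G : Y → H) (h : H) (E : Set Y) : ℝ :=
  √(∫ y in E, ‖⟪G y, h⟫_ℂ‖ ^ 2 ∂μ)

section one
variable {G : Y → H} {B : ℝ} {E : Set Y}

omit [CompleteSpace H] in
lemma int_coef (hG : AEStronglyMeasurable G μ) (hB : ∀ y, ‖G y‖ ≤ B) (hE : μ E ≠ ∞) (h : H)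
    (n : ℕ) : IntegrableOn (fun y => ‖⟪G y, h⟫_ℂ‖ ^ n) E μ := by
  refine Measure.integrableOn_of_bounded (M := (B * ‖h‖) ^ n) hE
    ((hG.inner aestronglyMeasurable_const).norm.pow n) (.of_forall fun y => ?_)
  rw [norm_pow, norm_norm]
  refine pow_le_pow_left₀ (norm_nonneg _) ((norm_inner_le_norm _ _).trans ?_) n
  exact mul_le_mul_of_nonneg_right (hB y) (norm_nonneg _)

omit [CompleteSpace H] in
lemma int_syn (hG : AEStronglyMeasurable G μ) (hB : ∀ y, ‖G y‖ ≤ B) (hE : μ E ≠ ∞) (h : H) :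
    IntegrableOn (fun y => ⟪G y, h⟫_ℂ • G y) E μ := by
  refine Measure.integrableOn_of_bounded (M := B * ‖h‖ * B) hE
    ((hG.inner aestronglyMeasurable_const).smul hG) (.of_forall fun y => ?_)
  rw [norm_smul]
  have h0 : 0 ≤ B := (norm_nonneg _).trans (hB y)
  refine mul_le_mul ((norm_inner_le_norm _ _).trans ?_) (hB y) (norm_nonneg _) (by positivity)
  exact mul_le_mul_of_nonneg_right (hB y) (norm_nonneg _)

lemma inner_syn (hG : AEStronglyMeasurable G μ) (hB : ∀ y, ‖G y‖ ≤ B) (hE : μ E ≠ ∞) (h g : H) :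
    ⟪g, syn μ G h E⟫_ℂ = ∫ y in E, ⟪G y, h⟫_ℂ * ⟪g, G y⟫_ℂ ∂μ := by
  rw [syn, ← integral_inner (int_syn hG hB hE h)]
  simp only [inner_smul_right]

omit [CompleteSpace H] in
lemma en_sq (h : H) : en μ G h E ^ 2 = ∫ y in E, ‖⟪G y, h⟫_ℂ‖ ^ 2 ∂μ :=
  Real.sq_sqrt (integral_nonneg fun _ => by positivity)

lemma re_inner_syn (hG : AEStronglyMeasurable G μ) (hB : ∀ y, ‖G y‖ ≤ B) (hE : μ E ≠ ∞) (h : H) :
    (⟪syn μ G h E, h⟫_ℂ).re = en μ G h E ^ 2 := by
  rw [← inner_conj_symm, Complex.conj_re, inner_syn hG hB hE, en_sq]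
  have : ∀ y, ⟪G y, h⟫_ℂ * ⟪h, G y⟫_ℂ = ((‖⟪G y, h⟫_ℂ‖ ^ 2 : ℝ) : ℂ) := fun y => by
    rw [← inner_conj_symm h (G y), Complex.mul_conj']; push_cast; rfl
  simp only [this]
  rw [integral_complex_ofReal, Complex.ofReal_re]

omit [CompleteSpace H] in
/-- Cauchy–Schwarz on a set -/
lemma integral_mul_le {u v : Y → ℝ} (hu : IntegrableOn (fun y => u y ^ 2) E μ)
    (hv : IntegrableOn (fun y => v y ^ 2) E μ) (huv : IntegrableOn (fun y => u y * v y) E μ) :
    ∫ y in E, u y * v y ∂μ ≤ √(∫ y in E, u y ^ 2 ∂μ) * √(∫ y in E, v y ^ 2 ∂μ) := by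
  rw [← Real.sqrt_mul (integral_nonneg fun _ => sq_nonneg _)]
  refine Real.le_sqrt_of_sq_le ?_
  have := discrim_le_zero (a := ∫ y in E, u y ^ 2 ∂μ) (b := 2 * ∫ y in E, u y * v y ∂μ)
    (c := ∫ y in E, v y ^ 2 ∂μ) fun t => by
    have h1 : 0 ≤ ∫ y in E, (t * u y + v y) ^ 2 ∂μ := integral_nonneg fun _ => sq_nonneg _
    have h2 : ∀ y, (t * u y + v y) ^ 2 = t * t * u y ^ 2 + 2 * t * (u y * v y) + v y ^ 2 :=
      fun y => by ring
    simp only [h2] at h1
    have h3 : IntegrableOn (fun y => t * t * u y ^ 2 + 2 * t * (u y * v y)) E μ :=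
      (hu.const_mul _).add (huv.const_mul _)
    rw [integral_add h3 hv,
      integral_add (hu.const_mul _) (huv.const_mul _), integral_const_mul, integral_const_mul] at h1
    linarith
  unfold discrim at this
  nlinarith

/-- the synthesis operator is a contraction -/
lemma norm_syn_le (hG : AEStronglyMeasurable G μ) (hB : ∀ y, ‖G y‖ ≤ B) (hE : μ E ≠ ∞)
    (hbes : ∀ g : H, ∫⁻ y, ‖⟪G y, g⟫_ℂ‖ₑ ^ 2 ∂μ ≤ ‖g‖ₑ ^ 2) (h : H) :
    ‖syn μ G h E‖ ≤ en μ G h E := by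
  set Φ := syn μ G h E with hΦ
  have h1 : en μ G Φ E ≤ ‖Φ‖ := by
    refine Real.sqrt_le_iff.2 ⟨norm_nonneg _, ?_⟩
    rw [integral_eq_lintegral_of_nonneg_ae (.of_forall fun _ => by positivity)
      (int_coef hG hB hE Φ 2).1]
    refine ENNReal.toReal_le_of_le_ofReal (by positivity) ?_
    refine le_trans (lintegral_mono' Measure.restrict_le_self (le_of_eq ?_))
      ((hbes Φ).trans (le_of_eq ?_))
    · funext y; rw [← ofReal_norm, ENNReal.ofReal_pow (norm_nonneg _)]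
    · rw [← ofReal_norm, ENNReal.ofReal_pow (norm_nonneg _)]
  have h2 : ‖Φ‖ ^ 2 ≤ en μ G h E * en μ G Φ E := by
    rw [← inner_self_eq_norm_sq (𝕜 := ℂ)]
    refine (Complex.re_le_norm _).trans ?_
    conv_lhs => rw [hΦ, inner_syn hG hB hE, ← hΦ]
    refine (norm_integral_le_integral_norm _).trans ?_
    simp only [norm_mul, norm_inner_symm Φ]
    refine integral_mul_le (int_coef hG hB hE h 2) (int_coef hG hB hE Φ 2) ?_
    refine Integrable.mono' ((int_coef hG hB hE h 2).add (int_coef hG hB hE Φ 2))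
      (((hG.inner aestronglyMeasurable_const).norm.mul
        (hG.inner aestronglyMeasurable_const).norm).restrict) (.of_forall fun y => ?_)
    rw [Real.norm_of_nonneg (by positivity), Pi.add_apply]
    nlinarith [sq_nonneg (‖⟪G y, h⟫_ℂ‖ - ‖⟪G y, Φ⟫_ℂ‖), norm_nonneg ⟪G y, h⟫_ℂ,
      norm_nonneg ⟪G y, Φ⟫_ℂ]
  have h3 : 0 ≤ en μ G h E := Real.sqrt_nonneg _
  rcases (norm_nonneg Φ).eq_or_lt with h0 | h0
  · rw [← h0]; exact h3
  · nlinarith

omit [CompleteSpace H] in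
lemma integral_coef_le (hG : AEStronglyMeasurable G μ) (hB : ∀ y, ‖G y‖ ≤ B) (hE : μ E ≠ ∞)
    (h : H) : ∫ y in E, ‖⟪G y, h⟫_ℂ‖ ∂μ ≤ √(μ.real E) * en μ G h E := by
  have h1 := int_coef hG hB hE h 1
  simp only [pow_one] at h1
  have := integral_mul_le (μ := μ) (E := E) (u := fun _ => 1) (v := fun y => ‖⟪G y, h⟫_ℂ‖)
    (integrableOn_const hE) (int_coef hG hB hE h 2) (by simpa using h1)
  simpa [en] using this

end one

/-- the Gram bound for two syntheses -/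
lemma norm_inner_syn_le {G G' : Y → H} {B A : ℝ} {E E' : Set Y} (hG : AEStronglyMeasurable G μ)
    (hG' : AEStronglyMeasurable G' μ) (hB : ∀ y, ‖G y‖ ≤ B) (hB' : ∀ y, ‖G' y‖ ≤ B)
    (hE : μ E ≠ ∞) (hE' : μ E' ≠ ∞) (hEm : MeasurableSet E) (hEm' : MeasurableSet E') (hA : 0 ≤ A)
    (hK : ∀ y ∈ E, ∀ y' ∈ E', ‖⟪G y, G' y'⟫_ℂ‖ ≤ A) (h : H) :
    ‖⟪syn μ G h E, syn μ G' h E'⟫_ℂ‖ ≤
      A * (√(μ.real E) * √(μ.real E')) * (en μ G h E * en μ G' h E') := by
  have key : ∀ {G : Y → H} {E : Set Y}, AEStronglyMeasurable G μ → (∀ y, ‖G y‖ ≤ B) → μ E ≠ ∞ →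
      MeasurableSet E → ∀ (g : H) (a : ℝ), 0 ≤ a → (∀ y ∈ E, ‖⟪g, G y⟫_ℂ‖ ≤ a) →
      ‖⟪g, syn μ G h E⟫_ℂ‖ ≤ a * (√(μ.real E) * en μ G h E) := by
    intro G E hG hB hE hEm g a ha hK
    rw [inner_syn hG hB hE]
    have h1 := int_coef hG hB hE h 1
    simp only [pow_one] at h1
    refine (norm_integral_le_of_norm_le (h1.const_mul a) ?_).trans ?_
    · refine (ae_restrict_iff' hEm).2 (.of_forall fun y hy => ?_)
      rw [norm_mul, mul_comm]
      exact mul_le_mul_of_nonneg_right (hK y hy) (norm_nonneg _)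
    · rw [integral_const_mul]
      exact mul_le_mul_of_nonneg_left (integral_coef_le hG hB hE h) ha
  have h0 : 0 ≤ en μ G h E := Real.sqrt_nonneg _
  refine (key hG' hB' hE' hEm' _ (A * (√(μ.real E) * en μ G h E)) (by positivity)
    fun y' hy' => ?_).trans (le_of_eq (by ring))
  rw [norm_inner_symm]
  exact key hG hB hE hEm _ A hA fun y hy => by rw [norm_inner_symm]; exact hK y hy y' hy'

/-- **Lemma St, abstract form.** -/
theorem st_abs {p : ℝ} (hp : 1 < p) : ∃ C : ℝ, 0 < C ∧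
    ∀ {H : Type} [NormedAddCommGroup H] [InnerProductSpace ℂ H] [CompleteSpace H]
      {Y : Type} [MeasurableSpace Y] (μ : Measure Y) {ι : Type} [Fintype ι]
      (G : ι → Y → H) (κ : Y → ℤ) (V : ι → Y → ℝ) (A : ι → ι → ℝ) (M : ι → ℝ) (D : ℝ),
      (∀ i, AEStronglyMeasurable (G i) μ) → Measurable κ → (∀ i, Measurable (V i)) →
      (∀ i j, 0 ≤ A i j) → (∀ i j, A i j = A j i) → (∀ i, 0 ≤ M i) → 0 ≤ D →
      (∀ i g, ∫⁻ y, ‖⟪G i y, g⟫_ℂ‖ₑ ^ 2 ∂μ ≤ ‖g‖ₑ ^ 2) →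
      (∀ i j y y', ‖⟪G i y, G j y'⟫_ℂ‖ ≤ A i j * Real.exp (-|(κ y : ℝ) - κ y'|)) →
      (∀ i (k : ℤ), ∫⁻ y in κ ⁻¹' {k}, ENNReal.ofReal (V i y ^ p) ∂μ ≤ ENNReal.ofReal (M i)) →
      (∀ i, ∑ j, (A i j * √(M i * M j)) ^ (1 / p) ≤ D) →
      ∀ h : H, ∑ i, ∫⁻ y, ENNReal.ofReal (V i y) * ‖⟪G i y, h⟫_ℂ‖ₑ ^ 2 ∂μ ≤
        ENNReal.ofReal (C * D * ‖h‖ ^ 2) := by
  obtain ⟨C, hC, hH⟩ := hankel hp
  have hp0 : 0 < p := by linarith
  set r : ℝ := Real.exp (-(1 / p)) with hr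
  have hr0 : 0 < r := Real.exp_pos _
  have hr1 : r < 1 := Real.exp_lt_one_iff.2 (by have := one_div_pos.2 hp0; linarith)
  have hr2 : 0 < 2 / (1 - r) := by have := sub_pos.2 hr1; positivity
  refine ⟨2 * (C * (2 / (1 - r))), by positivity, ?_⟩
  intro H _ _ _ Y _ μ ι _ G κ V A M D hG hκ hV hA hAs hM hD hbes hK hVp hrow h
  classical
  have hB : ∀ i y, ‖G i y‖ ≤ √(∑ j, A j j) := fun i y => by
    refine Real.le_sqrt_of_sq_le ?_
    have h1 := hK i i y y
    rw [inner_self_eq_norm_sq_to_K] at h1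
    simp only [sub_self, abs_zero, neg_zero, Real.exp_zero, mul_one, norm_pow] at h1
    refine le_trans (by simpa using h1) (single_le_sum (fun j _ => hA j j) (mem_univ i))
  set E : ι × ℤ × ℤ → Set Y := fun x => κ ⁻¹' {x.2.1} ∩
    V x.1 ⁻¹' Set.Ico ((2 : ℝ) ^ x.2.2) (2 ^ (x.2.2 + 1)) with hE
  have hEm : ∀ x, MeasurableSet (E x) := fun x =>
    (hκ (measurableSet_singleton _)).inter (hV _ measurableSet_Ico)
  have hEμ : ∀ x, μ (E x) ≤ ENNReal.ofReal (M x.1 * 2 ^ (-((x.2.2 : ℝ) * p))) := fun x => by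
    have h1 : ENNReal.ofReal ((2 : ℝ) ^ ((x.2.2 : ℝ) * p)) * μ (E x) ≤ ENNReal.ofReal (M x.1) := by
      rw [← setLIntegral_const]
      refine le_trans ?_ ((lintegral_mono_set (s := E x) Set.inter_subset_left).trans
        (hVp x.1 x.2.1))
      refine setLIntegral_mono' (hEm x) fun y hy => ENNReal.ofReal_le_ofReal ?_
      rw [Real.rpow_mul (by norm_num), Real.rpow_intCast]
      exact Real.rpow_le_rpow (by positivity) hy.2.1 hp0.le
    rw [Real.rpow_neg (by norm_num), ENNReal.ofReal_mul (hM _),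
      ENNReal.ofReal_inv_of_pos (by positivity), ← div_eq_mul_inv,
      ENNReal.le_div_iff_mul_le (Or.inl (by simp; positivity)) (Or.inl ENNReal.ofReal_ne_top),
      mul_comm]
    exact h1
  have hEf : ∀ x, μ (E x) ≠ ∞ := fun x => ne_top_of_le_ne_top ENNReal.ofReal_ne_top (hEμ x)
  have hEr : ∀ x, √(μ.real (E x)) ≤ √(M x.1) * 2 ^ (-((x.2.2 : ℝ) / 2 * p)) := fun x => by
    refine Real.sqrt_le_iff.2 ⟨by positivity, ?_⟩
    rw [mul_pow, Real.sq_sqrt (hM _), ← Real.rpow_natCast, ← Real.rpow_mul (by norm_num)]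
    refine (ENNReal.toReal_le_of_le_ofReal (by have := hM x.1; positivity) (hEμ x)).trans
      (le_of_eq ?_)
    congr 2; push_cast; ring
  have fin : ∀ s : Finset (ι × ℤ × ℤ), ∑ x ∈ s, ((2 : ℝ) ^ ((x.2.2 : ℝ) / 2)) ^ 2 *
      en μ (G x.1) h (E x) ^ 2 ≤ C * (2 / (1 - r)) * D * ‖h‖ ^ 2 := by
    intro s
    refine schur_fin s (fun x => syn μ (G x.1) h (E x)) h _ _
      (fun x y => (2 : ℝ) ^ (((x.2.2 : ℝ) + y.2.2) / 2) * min 1
        (A x.1 y.1 * √(M x.1 * M y.1) * Real.exp (-|(y.2.1 : ℝ) - x.2.1|) *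
          2 ^ (-(((x.2.2 : ℝ) + y.2.2) / 2 * p)))) (by positivity) (fun _ _ => by positivity)
      (fun x _ => re_inner_syn (hG _) (hB _) (hEf x) h)
      (fun x _ y _ => by have := hA x.1 y.1; positivity)
      (fun x _ y _ => by rw [add_comm (x.2.2 : ℝ), hAs, mul_comm (M x.1), abs_sub_comm])
      (fun x _ y _ => ?_) fun x _ => ?_
    · rw [← Real.rpow_add (by norm_num), ← add_div, mul_assoc]
      refine mul_le_mul_of_nonneg_left ?_ (by positivity)
      have e1 : 0 ≤ en μ (G x.1) h (E x) := Real.sqrt_nonneg _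
      have e2 : 0 ≤ en μ (G y.1) h (E y) := Real.sqrt_nonneg _
      rw [min_mul_of_nonneg _ _ (mul_nonneg e1 e2), one_mul]
      refine le_min ((norm_inner_le_norm _ _).trans (mul_le_mul
        (norm_syn_le (hG _) (hB _) (hEf x) (hbes _) h)
        (norm_syn_le (hG _) (hB _) (hEf y) (hbes _) h) (norm_nonneg _) e1)) ?_
      refine (norm_inner_syn_le (A := A x.1 y.1 * Real.exp (-|(y.2.1 : ℝ) - x.2.1|)) (hG _) (hG _)
        (hB _) (hB _) (hEf x) (hEf y) (hEm x) (hEm y) (by have := hA x.1 y.1; positivity)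
        (fun u hu v hv => ?_) h).trans ?_
      · have := hK x.1 y.1 u v
        rwa [show κ u = x.2.1 from hu.1, show κ v = y.2.1 from hv.1, abs_sub_comm] at this
      · refine mul_le_mul_of_nonneg_right ?_ (mul_nonneg e1 e2)
        have := hA x.1 y.1
        calc _ ≤ A x.1 y.1 * Real.exp (-|(y.2.1 : ℝ) - x.2.1|) *
              ((√(M x.1) * 2 ^ (-((x.2.2 : ℝ) / 2 * p))) *
                (√(M y.1) * 2 ^ (-((y.2.2 : ℝ) / 2 * p)))) := by
              gcongr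
              · exact hEr x
              · exact hEr y
          _ = _ := by
              rw [Real.sqrt_mul (hM _), show -(((x.2.2 : ℝ) + y.2.2) / 2 * p) =
                -((x.2.2 : ℝ) / 2 * p) + -((y.2.2 : ℝ) / 2 * p) by ring,
                Real.rpow_add (by norm_num)]
              ring
    · have hs : s ⊆ univ ×ˢ (s.image fun y => y.2.1) ×ˢ (s.image fun y => y.2.2) := fun y hy => by
        simp only [mem_product, mem_univ, true_and]
        exact ⟨mem_image_of_mem _ hy, mem_image_of_mem _ hy⟩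
      refine (sum_le_sum_of_subset_of_nonneg hs fun y _ _ => by
        have := hA x.1 y.1; positivity).trans ?_
      rw [sum_product]
      refine le_trans (sum_le_sum fun j _ => ?_)
        ((mul_sum _ _ _).symm.trans_le (mul_le_mul_of_nonneg_left (hrow x.1) (by positivity)))
      rw [sum_product]
      have := hA x.1 j
      refine (sum_le_sum fun (k : ℤ) _ => hH (A x.1 j * √(M x.1 * M j) *
        Real.exp (-|(k : ℝ) - x.2.1|)) x.2.2 _ (by positivity)).trans ?_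
      have e : ∀ k : ℤ, C * (A x.1 j * √(M x.1 * M j) * Real.exp (-|(k : ℝ) - x.2.1|)) ^ (1 / p) =
          C * (A x.1 j * √(M x.1 * M j)) ^ (1 / p) * r ^ |(k : ℝ) - x.2.1| := fun k => by
        rw [Real.mul_rpow (by positivity) (by positivity), hr, ← Real.exp_mul, ← Real.exp_mul,
          mul_assoc]
        congr 3; ring
      simp only [e]
      rw [← mul_sum, mul_right_comm]
      exact mul_le_mul_of_nonneg_right (mul_le_mul_of_nonneg_left
        (sum_rpow_abs_le hr0 hr1 _ _) hC.le) (by positivity)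
  set φ : ι × ℤ × ℤ → Y → ℝ≥0∞ := fun x => (E x).indicator fun y =>
    ENNReal.ofReal (2 * ((2 : ℝ) ^ ((x.2.2 : ℝ) / 2)) ^ 2 * ‖⟪G x.1 y, h⟫_ℂ‖ ^ 2) with hφ
  have hφi : ∀ x, ∫⁻ y, φ x y ∂μ = ENNReal.ofReal (2 * (((2 : ℝ) ^ ((x.2.2 : ℝ) / 2)) ^ 2 *
      en μ (G x.1) h (E x) ^ 2)) := fun x => by
    rw [hφ, lintegral_indicator (hEm x), ← ofReal_integral_eq_lintegral_ofReal
      ((int_coef (hG _) (hB _) (hEf x) h 2).const_mul _) (.of_forall fun _ => by positivity),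
      integral_const_mul, en_sq, mul_assoc]
  calc _ ≤ ∑ i, ∑' z : ℤ × ℤ, ∫⁻ y, φ (i, z) y ∂μ := by
        refine sum_le_sum fun i _ => ?_
        rw [← lintegral_tsum fun z => ?_]
        · refine lintegral_mono fun y => ?_
          rcases le_or_gt (V i y) 0 with h0 | h0
          · simp [ENNReal.ofReal_of_nonpos h0]
          obtain ⟨l, hl⟩ := exists_mem_Ico_zpow h0 (one_lt_two (α := ℝ))
          refine le_trans ?_ (ENNReal.le_tsum (κ y, l))
          rw [hφ]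
          simp only
          rw [Set.indicator_of_mem (show y ∈ E (i, κ y, l) from ⟨rfl, hl⟩), ← ofReal_norm,
            ← ENNReal.ofReal_pow (norm_nonneg _), ← ENNReal.ofReal_mul h0.le]
          refine ENNReal.ofReal_le_ofReal (mul_le_mul_of_nonneg_right ?_ (by positivity))
          rw [← Real.rpow_natCast, ← Real.rpow_mul (by norm_num)]
          have := hl.2
          rw [zpow_add_one₀ two_ne_zero] at this
          norm_num
          linarith
        · refine AEMeasurable.indicator ?_ (hEm _)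
          exact ((((hG i).inner aestronglyMeasurable_const).norm.aemeasurable.pow_const
            2).const_mul _).ennreal_ofReal
    _ = ∑' x : ι × ℤ × ℤ, ∫⁻ y, φ x y ∂μ := by
        rw [ENNReal.tsum_prod', tsum_fintype]
    _ ≤ _ := by
        rw [ENNReal.tsum_eq_iSup_sum]
        refine iSup_le fun s => ?_
        simp only [hφi]
        rw [← ENNReal.ofReal_sum_of_nonneg fun _ _ => by positivity, ← mul_sum]
        refine ENNReal.ofReal_le_ofReal ?_
        nlinarith [fin s]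

end Crest.Agent.N76.St
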