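import Crest.Agent.N76.St.Schur
import Crest.Agent.N76.G.Gam
import Crest.Agent.N76.II.Defs

/-! # Row 76: the one dimensional weighted Strichartz lemma `St` -/

set_option autoImplicit false

open MeasureTheory Set
open scoped ENNReal ComplexConjugate

namespace Crest.Agent.N76.II

open Crest.Agent.N76.Red (V ph)
open Crest.Agent.N76.G Crest.Agent.N76.St

namespace StAux

lemma sum_int_rpow_le {s : ℝ} (hs0 : 0 ≤ s) (hs1 : s < 1) (I : Finset ℤ) (i : ℤ) (N : ℕ)
    (hN : ∀ j ∈ I, |i - j| < N) :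
    ∑ j ∈ I, (1 + |(i : ℝ) - j|) ^ (-s) ≤ 2 * ((N : ℝ) ^ (1 - s) / (1 - s)) := by
  have key : ∀ t : Finset ℤ, t ⊆ I → Set.InjOn (fun j => (i - j).natAbs) t →
      ∑ j ∈ t, (1 + |(i : ℝ) - j|) ^ (-s) ≤ (N : ℝ) ^ (1 - s) / (1 - s) := by
    intro t ht h1
    have h3 : ∀ j : ℤ, |(i : ℝ) - j| = ((i - j).natAbs : ℕ) := fun j => by
      rw [Nat.cast_natAbs]; push_cast; rfl
    rw [Finset.sum_congr rfl fun j _ => by rw [h3 j, add_comm],
      ← Finset.sum_image (f := fun m : ℕ => ((m : ℝ) + 1) ^ (-s)) h1]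
    refine le_trans (Finset.sum_le_sum_of_subset_of_nonneg (fun m hm => ?_) fun _ _ _ => by
      positivity) (sum_range_rpow_le hs0 hs1 N)
    obtain ⟨j, hj, rfl⟩ := Finset.mem_image.1 hm
    have := hN j (ht hj)
    rw [Int.abs_eq_natAbs] at this
    exact Finset.mem_range.2 (by exact_mod_cast this)
  rw [← Finset.sum_filter_add_sum_filter_not I fun j : ℤ => j ≤ i, two_mul]
  refine add_le_add (key _ (Finset.filter_subset _ _) ?_) (key _ (Finset.filter_subset _ _) ?_)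
  · intro a ha b hb hab
    have := (Finset.mem_filter.1 ha).2
    have := (Finset.mem_filter.1 hb).2
    simp only at hab
    omega
  · intro a ha b hb hab
    have := (Finset.mem_filter.1 ha).2
    have := (Finset.mem_filter.1 hb).2
    simp only at hab
    omega

lemma row_int {γ : ℝ} (h0 : 0 < γ) (h1 : γ < 1 / 2) : ∃ C : ℝ, 0 < C ∧
    ∀ (I : Finset ℤ) (M : ℤ → ℝ) (i : ℤ) (x : ℝ), 1 ≤ x → (∀ j ∈ I, 0 ≤ M j) →
      (∀ j ∈ I, |(i : ℝ) - j| ≤ 4 * x) →
      ∑ j ∈ I, (1 + |(i : ℝ) - j|) ^ (-γ) * M j ^ γ ≤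
        C * x ^ (1 - 2 * γ) * (∑ j ∈ I, M j) ^ γ := by
  have h2 : 0 < 1 - γ := by linarith
  set s : ℝ := γ / (1 - γ) with hs
  have hs0 : 0 ≤ s := by positivity
  have hs1 : s < 1 := by rw [hs, div_lt_one h2]; linarith
  have hs2 : 0 < 1 - s := by linarith
  refine ⟨(2 / (1 - s)) ^ (1 - γ) * 5 ^ (1 - 2 * γ), by positivity, fun I M i x hx hM hI => ?_⟩
  have hpq : (1 - γ)⁻¹.HolderConjugate γ⁻¹ := Real.HolderConjugate.one_sub_inv_inv h0 (by linarith)
  refine (Real.inner_le_Lp_mul_Lq_of_nonneg I hpq (fun _ _ => by positivity)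
    fun j hj => Real.rpow_nonneg (hM j hj) _).trans ?_
  have e1 : ∀ j : ℤ, ((1 + |(i : ℝ) - j|) ^ (-γ)) ^ (1 - γ)⁻¹ = (1 + |(i : ℝ) - j|) ^ (-s) :=
    fun j => by rw [← Real.rpow_mul (by positivity), hs]; congr 1; ring
  have e2 : ∑ j ∈ I, (M j ^ γ) ^ γ⁻¹ = ∑ j ∈ I, M j :=
    Finset.sum_congr rfl fun j hj => Real.rpow_rpow_inv (hM j hj) h0.ne'
  have hS : 0 ≤ ∑ j ∈ I, M j := Finset.sum_nonneg hM
  have hN : ((⌊4 * x⌋₊ + 1 : ℕ) : ℝ) ≤ 5 * x := by
    push_cast; linarith [Nat.floor_le (by linarith : 0 ≤ 4 * x)]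
  have h3 := sum_int_rpow_le hs0 hs1 I i (⌊4 * x⌋₊ + 1) fun j hj => by
    have h4 := (hI j hj).trans_lt (Nat.lt_floor_add_one _)
    exact_mod_cast h4
  simp only [e1, e2, one_div, inv_inv]
  calc _ ≤ (2 * ((5 * x) ^ (1 - s) / (1 - s))) ^ (1 - γ) * (∑ j ∈ I, M j) ^ γ := by
        gcongr
        refine h3.trans ?_
        gcongr
    _ = _ := by
        rw [show 2 * ((5 * x) ^ (1 - s) / (1 - s)) = 2 / (1 - s) * (5 * x) ^ (1 - s) by ring,
          Real.mul_rpow (by positivity) (by positivity), ← Real.rpow_mul (by positivity),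
          show (1 - s) * (1 - γ) = 1 - 2 * γ by rw [hs]; field_simp; ring,
          Real.mul_rpow (by norm_num) (by positivity)]
        ring

/-- the identification of `V 1` with the real line -/
noncomputable def e1 : V 1 ≃ᵐ ℝ :=
  (MeasurableEquiv.toLp 2 (Fin 1 → ℝ)).symm.trans (MeasurableEquiv.funUnique (Fin 1) ℝ)

lemma e1_apply (ξ : V 1) : e1 ξ = ξ 0 := rfl

lemma mp_e1 : MeasurePreserving e1 volume volume :=
  (PiLp.volume_preserving_ofLp (Fin 1)).trans (volume_preserving_funUnique (Fin 1) ℝ)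

lemma norm_sq_V1 (ξ : V 1) : ‖ξ‖ ^ 2 = ξ 0 ^ 2 := by simp [EuclideanSpace.real_norm_sq_eq]

/-- the test vectors -/
noncomputable def GG (r t y : ℝ) : L2 1 :=
  (((2 * r ^ 2) ^ (-(1 / 4) : ℝ) : ℝ) : ℂ) • gam r t (EuclideanSpace.single 0 y, 0)

lemma continuous_GG {r : ℝ} (hr : 0 < r) (t : ℝ) : Continuous (GG r t) := by
  have h1 : Continuous fun y : ℝ => (EuclideanSpace.single (0 : Fin 1) y : V 1) := by
    have : (fun y : ℝ => (EuclideanSpace.single (0 : Fin 1) y : V 1)) =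
        fun y : ℝ => y • (EuclideanSpace.single (0 : Fin 1) (1 : ℝ) : V 1) := by
      funext y; ext i; fin_cases i; simp
    rw [this]; fun_prop
  exact ((continuous_gam hr).comp (f := fun y : ℝ => (t, (EuclideanSpace.single 0 y, (0 : V 1))))
    (by fun_prop)).const_smul (((2 * r ^ 2) ^ (-(1 / 4) : ℝ) : ℝ) : ℂ)

lemma norm_inner_GG {r : ℝ} (hr : 0 < r) (t t' y y' : ℝ) :
    ‖inner ℂ (GG r t y) (GG r t' y')‖ = (4 * r ^ 4 + 4 * (t - t') ^ 2) ^ (-(1 / 4) : ℝ) *
      Real.exp (-(2 * Real.pi * r ^ 2 / (4 * r ^ 4 + 4 * (t - t') ^ 2)) * (y - y') ^ 2) := by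
  have hs : sig r t r t' = 4 * r ^ 4 + 4 * (t - t') ^ 2 := by unfold sig; ring
  rw [GG, GG, inner_smul_left, inner_smul_right, Complex.conj_ofReal, norm_mul, norm_mul,
    Complex.norm_real, Real.norm_of_nonneg (by positivity), norm_inner_gam hr hr, pre, Qf, hs,
    ← mul_assoc, ← mul_assoc]
  congr 1
  · rw [← Real.mul_rpow (by positivity) (by positivity), Real.div_rpow (by positivity)
      (by positivity), show 2 * r ^ 2 * (2 * r ^ 2) = 4 * r ^ 2 * r ^ 2 by ring, Nat.cast_one,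
      Real.rpow_neg (by positivity), Real.rpow_neg (by positivity)]
    field_simp
  · congr 1
    simp only [pos, Prod.fst_sub, Prod.snd_sub, sub_self, smul_zero, sub_zero, norm_zero,
      norm_sq_V1]
    simp
    ring

lemma bessel_GG {r : ℝ} (hr : 0 < r) (t : ℝ) (g : L2 1) :
    ∫⁻ y, ‖inner ℂ (GG r t y) g‖ₑ ^ 2 ≤ ‖g‖ₑ ^ 2 := by
  have h := bessel_of_schur (μ := volume) (G := GG r t) (B := (2 * r ^ 2) ^ (-(1 / 4) : ℝ)) (D := 1)
    (continuous_GG hr t).stronglyMeasurable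
    (fun y => by rw [GG, norm_smul, norm_gam hr, mul_one, Complex.norm_real,
      Real.norm_of_nonneg (by positivity)]) zero_le_one (fun y => ?_) g
  · rwa [one_mul, ENNReal.ofReal_pow (norm_nonneg _), ofReal_norm] at h
  have hb : 0 < Real.pi / (2 * r ^ 2) := by have := Real.pi_pos; positivity
  have h1 : ∀ y', ‖inner ℂ (GG r t y) (GG r t y')‖ = (√(2 * r ^ 2))⁻¹ *
      Real.exp (-(Real.pi / (2 * r ^ 2)) * (y' - y) ^ 2) := fun y' => by
    rw [norm_inner_GG hr, sub_self, show 4 * r ^ 4 + 4 * (0 : ℝ) ^ 2 = (2 * r ^ 2) ^ 2 by ring,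
      ← Real.rpow_natCast (2 * r ^ 2), ← Real.rpow_mul (by positivity), Real.sqrt_eq_rpow,
      ← Real.rpow_neg (by positivity), Real.rpow_natCast]
    congr 2
    · norm_num
    · field_simp; ring
  simp only [← ofReal_norm, h1]
  rw [← ofReal_integral_eq_lintegral_ofReal
    (((integrable_exp_neg_mul_sq hb).comp_sub_right y).const_mul _)
    (.of_forall fun _ => by positivity), integral_const_mul,
    integral_sub_right_eq_self (fun x : ℝ => Real.exp (-(Real.pi / (2 * r ^ 2)) * x ^ 2)) y,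
    integral_gaussian, div_div_cancel₀ Real.pi_pos.ne', inv_mul_cancel₀ (by positivity)]

lemma exists_vec {r : ℝ} (hr : 0 < r) {c : ℝ → ℂ} (hc : MemLp c 2 volume)
    (hs : ∀ η, 1 / r < |η| → c η = 0) : ∃ h : L2 1,
    ‖h‖ ^ 2 ≤ Real.exp (2 * Real.pi) * ∫ η, ‖c η‖ ^ 2 ∧
      ∀ t y, inner ℂ (GG r t y) h = U1 t c y := by
  set F : ℝ → ℂ := fun η => (Real.exp (Real.pi * r ^ 2 * η ^ 2) : ℂ) * c η with hF
  have hb : ∀ η, ‖F η‖ ≤ Real.exp Real.pi * ‖c η‖ := fun η => by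
    rcases lt_or_ge (1 / r) |η| with h1 | h1
    · simp [hF, hs η h1]
    rw [hF, norm_mul, Complex.norm_real, Real.norm_of_nonneg (by positivity)]
    refine mul_le_mul_of_nonneg_right (Real.exp_le_exp.2 ?_) (norm_nonneg _)
    rw [mul_assoc]
    refine mul_le_of_le_one_right Real.pi_pos.le ?_
    rw [le_div_iff₀ hr] at h1
    rw [← sq_abs η, ← mul_pow, mul_comm]
    exact pow_le_one₀ (by positivity) h1
  have hm : AEStronglyMeasurable F volume :=
    (Continuous.aestronglyMeasurable (by fun_prop)).mul hc.1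
  have hF2 : MemLp F 2 volume := hc.of_le_mul hm (.of_forall hb)
  have hF3 : MemLp (F ∘ e1) 2 volume := hF2.comp_measurePreserving mp_e1
  refine ⟨hF3.toLp _, ?_, fun t y => ?_⟩
  · have h1 : ‖hF3.toLp _‖ ^ 2 = ∫ ξ, ‖F (e1 ξ)‖ ^ 2 := by
      rw [← inner_self_eq_norm_sq (𝕜 := ℂ), L2.inner_def, ← integral_re (L2.integrable_inner _ _)]
      exact integral_congr_ae (hF3.coeFn_toLp.mono fun ξ hξ => by
        simp only [hξ, inner_self_eq_norm_sq, Function.comp])
    rw [h1, mp_e1.integral_comp' (fun η => ‖F η‖ ^ 2), ← integral_const_mul]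
    refine integral_mono ((memLp_two_iff_integrable_sq_norm hm).1 hF2)
      (((memLp_two_iff_integrable_sq_norm hc.1).1 hc).const_mul _) fun ξ => ?_
    refine (pow_le_pow_left₀ (norm_nonneg _) (hb ξ) 2).trans (le_of_eq ?_)
    rw [mul_pow, ← Real.exp_nat_mul]; norm_num
  · rw [GG, inner_smul_left, Complex.conj_ofReal, ← co, co_eq hr, ← integral_const_mul, U1,
      ← mp_e1.integral_comp']
    refine integral_congr_ae (hF3.coeFn_toLp.mono fun ξ hξ => ?_)
    simp only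
    rw [hξ, conj_gamF, Function.comp, hF]
    simp only [sub_zero, norm_sq_V1, EuclideanSpace.inner_single_left, e1_apply, conj_trivial]
    rw [← mul_assoc, ← mul_assoc, ← mul_assoc, ← Complex.ofReal_mul,
      ← Real.rpow_add (by positivity), Nat.cast_one, neg_add_cancel, Real.rpow_zero,
      Complex.ofReal_one, one_mul, Complex.ofReal_exp, ← Complex.exp_add, mul_comm, ph]
    congr 2
    push_cast; ring

lemma kernel_le {R r l t t' y y' : ℝ} (hR : 0 < R) (hr : 0 < r) (hl : r + R / r ≤ l)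
    (ht : |t - t'| ≤ 4 * R) :
    ‖inner ℂ (GG r t y) (GG r t' y')‖ ≤ Real.exp 4 * (4 * r ^ 4 + 4 * (t - t') ^ 2) ^ (-(1 / 4) : ℝ) *
      Real.exp (-|(⌊y / l⌋ : ℝ) - ⌊y' / l⌋|) := by
  have hl0 : 0 < l := lt_of_lt_of_le (by positivity) hl
  rw [norm_inner_GG hr, mul_comm (Real.exp 4), mul_assoc _ (Real.exp 4), ← Real.exp_add]
  refine mul_le_mul_of_nonneg_left (Real.exp_le_exp.2 ?_) (by positivity)
  have h1 : r ≤ l := le_trans (le_add_of_nonneg_right (by positivity)) hl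
  have h2 : R ≤ l * r := by rw [← div_le_iff₀ hr]; linarith
  have h3 : 4 * r ^ 4 + 4 * (t - t') ^ 2 ≤ 68 * (l ^ 2 * r ^ 2) := by
    have h4 : (t - t') ^ 2 ≤ (4 * (l * r)) ^ 2 := by rw [← sq_abs]; gcongr; linarith
    have h5 : r ^ 2 * r ^ 2 ≤ l ^ 2 * r ^ 2 := by gcongr
    nlinarith
  have h4 : 1 / (12 * l ^ 2) ≤ 2 * Real.pi * r ^ 2 / (4 * r ^ 4 + 4 * (t - t') ^ 2) := by
    rw [div_le_div_iff₀ (by positivity) (by positivity)]
    nlinarith [Real.pi_gt_three, mul_pos (pow_pos hl0 2) (pow_pos hr 2)]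
  have h5 : |(⌊y / l⌋ : ℝ) - ⌊y' / l⌋| ≤ |(y - y') / l| + 1 := by
    rw [sub_div, abs_le]
    constructor <;> linarith [Int.floor_le (y / l), Int.lt_floor_add_one (y / l),
      Int.floor_le (y' / l), Int.lt_floor_add_one (y' / l), le_abs_self (y / l - y' / l),
      neg_abs_le (y / l - y' / l)]
  have h6 : 1 / (12 * l ^ 2) * (y - y') ^ 2 = |(y - y') / l| ^ 2 / 12 := by
    rw [sq_abs]; field_simp
  nlinarith [mul_le_mul_of_nonneg_right h4 (sq_nonneg (y - y')), sq_nonneg (|(y - y') / l| - 6)]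

end StAux

open StAux in
/-- **Lemma St**. -/
theorem st : St := by
  intro q hq
  obtain ⟨C₁, hC₁, h₁⟩ := st_abs hq
  set γ : ℝ := 1 / (2 * q) with hγ
  have hq0 : 0 < q := by linarith
  have hγ0 : 0 < γ := by positivity
  have hγ1 : γ < 1 / 2 := by rw [hγ]; gcongr; linarith
  have hγ2 : 1 / q = 2 * γ := by rw [hγ]; field_simp
  obtain ⟨C₂, hC₂, h₂⟩ := row_int hγ0 hγ1
  refine ⟨C₁ * (Real.exp 4 ^ (2 * γ) * (1 + C₂)) * Real.exp (2 * Real.pi), by positivity, ?_⟩
  intro R L r l A hL hLR hr hl hA I hI W M hW hW0 hM hWq c hc hs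
  have hR : 0 < R := hL.trans_le hLR
  have hl0 : 0 < l := lt_of_lt_of_le (by positivity) hl
  obtain ⟨h, hh, hU⟩ := exists_vec hr hc hs
  have hS : 0 ≤ ∑ k ∈ I, M k := Finset.sum_nonneg fun k hk => (hM k hk).1
  have hx : 1 ≤ R / L := (one_le_div hL).2 hLR
  have hij : ∀ i ∈ I, ∀ j ∈ I, |(i : ℝ) * L - j * L| ≤ 4 * R := fun i hi j hj =>
    (abs_sub _ _).trans (by linarith [hI i hi, hI j hj])
  set D : ℝ := Real.exp 4 ^ (2 * γ) * ((A / r) ^ (2 * γ) +
    C₂ * (L ^ (-γ) * A ^ γ * (R / L) ^ (1 - 2 * γ) * (∑ k ∈ I, M k) ^ γ)) with hD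
  have key := h₁ (μ := volume) (ι := I) (fun k y => GG r (k * L) y) (fun y => ⌊y / l⌋)
    (fun k => W k)
    (fun i j => Real.exp 4 * (4 * r ^ 4 + 4 * ((i : ℤ) * L - (j : ℤ) * L) ^ 2) ^ (-(1 / 4) : ℝ))
    (fun k => M k) D (fun k => (continuous_GG hr _).aestronglyMeasurable)
    (Int.measurable_floor.comp (measurable_id.div_const l)) (fun k => hW k)
    (fun i j => by positivity) (fun i j => by rw [← neg_sub, neg_sq]) (fun k => (hM k k.2).1)
    (by positivity) (fun k g => bessel_GG hr _ g)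
    (fun i j y y' => kernel_le hR hr hl (hij i i.2 j j.2))
    (fun k m => (lintegral_mono_set fun y hy => ?_).trans (hWq k k.2 (m * l))) (fun i => ?_) h
  · have e : ∀ k : ℤ, ∫⁻ y, ENNReal.ofReal (L * W k y * ‖U1 (k * L) c y‖ ^ 2) =
        ENNReal.ofReal L * ∫⁻ y, ENNReal.ofReal (W k y) * ‖inner ℂ (GG r (k * L) y) h‖ₑ ^ 2 := by
      intro k
      rw [← lintegral_const_mul' _ _ ENNReal.ofReal_ne_top]
      refine lintegral_congr fun y => ?_
      rw [hU, mul_assoc, ENNReal.ofReal_mul hL.le, ENNReal.ofReal_mul (hW0 k y),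
        ENNReal.ofReal_pow (norm_nonneg _), ofReal_norm]
    simp only [e]
    rw [← Finset.mul_sum, ← Finset.sum_coe_sort I]
    refine (mul_le_mul_right key _).trans ?_
    rw [← ENNReal.ofReal_mul hL.le]
    refine ENNReal.ofReal_le_ofReal ?_
    have e2 : L * (L ^ (-γ) * A ^ γ * (R / L) ^ (1 - 2 * γ) * (∑ k ∈ I, M k) ^ γ) =
        R ^ (1 - γ) * (A * (L / R * ∑ k ∈ I, M k)) ^ γ := by
      rw [Real.mul_rpow hA (by positivity), Real.mul_rpow (by positivity) hS,
        Real.div_rpow hR.le hL.le, Real.div_rpow hL.le hR.le,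
        show 1 - 2 * γ = 1 - γ - γ by ring, Real.rpow_sub hR (1 - γ), Real.rpow_sub hL (1 - γ),
        Real.rpow_sub hL 1, Real.rpow_one, Real.rpow_neg hL.le]
      field_simp
    have e3 : L * D ≤ Real.exp 4 ^ (2 * γ) * (1 + C₂) *
        (R ^ (1 - γ) * (A * (L / R * ∑ k ∈ I, M k)) ^ γ + L * (A / r) ^ (1 / q)) := by
      rw [hD, hγ2, ← e2, mul_left_comm, mul_assoc (Real.exp 4 ^ (2 * γ))]
      refine mul_le_mul_of_nonneg_left ?_ (by positivity)
      have p1 : 0 ≤ L * (A / r) ^ (2 * γ) := by positivity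
      have p2 : 0 ≤ L * (L ^ (-γ) * A ^ γ * (R / L) ^ (1 - 2 * γ) * (∑ k ∈ I, M k) ^ γ) := by
        positivity
      nlinarith [mul_nonneg hC₂.le p1]
    calc L * (C₁ * D * ‖h‖ ^ 2) = C₁ * (L * D) * ‖h‖ ^ 2 := by ring
      _ ≤ C₁ * (Real.exp 4 ^ (2 * γ) * (1 + C₂) *
          (R ^ (1 - γ) * (A * (L / R * ∑ k ∈ I, M k)) ^ γ + L * (A / r) ^ (1 / q))) *
          (Real.exp (2 * Real.pi) * ∫ η, ‖c η‖ ^ 2) := by gcongr
      _ = _ := by ring
  · have hy' : ⌊y / l⌋ = m := hy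
    have h1 := Int.floor_le (y / l)
    have h2 := Int.lt_floor_add_one (y / l)
    rw [hy', le_div_iff₀ hl0] at h1
    rw [hy', div_lt_iff₀ hl0] at h2
    exact ⟨h1, by linarith⟩
  · have hrow := h₂ I M i (R / L) hx (fun j hj => (hM j hj).1) fun j hj => by
      have := hij i i.2 j hj
      rw [← sub_mul, abs_mul, abs_of_pos hL] at this
      rw [← mul_div_assoc, le_div_iff₀ hL]; exact this
    have hMi := hM i i.2
    have term : ∀ j ∈ I, (Real.exp 4 * (4 * r ^ 4 + 4 * ((i : ℤ) * L - j * L) ^ 2) ^ (-(1 / 4) : ℝ) *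
        √(M i * M j)) ^ (1 / q) ≤ Real.exp 4 ^ (2 * γ) * ((if j = i then (A / r) ^ (2 * γ) else 0) +
          L ^ (-γ) * A ^ γ * ((1 + |((i : ℤ) : ℝ) - j|) ^ (-γ) * M j ^ γ)) := by
      intro j hj
      have hMj := hM j hj
      rw [hγ2, mul_assoc, Real.mul_rpow (by positivity) (by positivity)]
      refine mul_le_mul_of_nonneg_left ?_ (by positivity)
      split_ifs with hji
      · subst hji
        refine le_add_of_le_of_nonneg (Real.rpow_le_rpow (by positivity) ?_ (by positivity))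
          (by have := hMi.1; positivity)
        rw [Real.sqrt_mul_self hMi.1, div_eq_inv_mul A]
        refine mul_le_mul ?_ hMi.2 hMi.1 (by positivity)
        calc _ ≤ (r ^ 4) ^ (-(1 / 4) : ℝ) :=
              Real.rpow_le_rpow_of_nonpos (by positivity)
                (by rw [sub_self]; linarith [pow_pos hr 4]) (by norm_num)
          _ = r⁻¹ := by
              rw [← Real.rpow_natCast, ← Real.rpow_mul hr.le, ← Real.rpow_neg_one]; norm_num
      · have h1 : (1 : ℝ) ≤ |((i : ℤ) : ℝ) - j| := by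
          have : (1 : ℤ) ≤ |(i : ℤ) - j| := Int.one_le_abs (sub_ne_zero.2 (Ne.symm hji))
          exact_mod_cast this
        have h2 : (4 * r ^ 4 + 4 * ((i : ℤ) * L - j * L) ^ 2) ^ (-(1 / 4) : ℝ) ≤
            (L * (1 + |((i : ℤ) : ℝ) - j|)) ^ (-(1 / 2) : ℝ) :=
          calc _ ≤ ((L * (1 + |((i : ℤ) : ℝ) - j|)) ^ 2) ^ (-(1 / 4) : ℝ) := by
                refine Real.rpow_le_rpow_of_nonpos (by positivity) ?_ (by norm_num)
                have h3 : (L * (1 + |((i : ℤ) : ℝ) - j|)) ^ 2 ≤ (L * (2 * |((i : ℤ) : ℝ) - j|)) ^ 2 := by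
                  gcongr; linarith
                rw [mul_pow L (2 * _), mul_pow 2, sq_abs] at h3
                nlinarith [pow_pos hr 4]
            _ = _ := by rw [← Real.rpow_natCast, ← Real.rpow_mul (by positivity)]; norm_num
        rw [zero_add]
        calc _ ≤ ((L * (1 + |((i : ℤ) : ℝ) - j|)) ^ (-(1 / 2) : ℝ) * √(A * M j)) ^ (2 * γ) := by
              gcongr
              · exact hMj.1
              · exact hMi.2
          _ = _ := by
              rw [Real.mul_rpow (by positivity) (by positivity), ← Real.rpow_mul (by positivity),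
                Real.sqrt_eq_rpow, ← Real.rpow_mul (mul_nonneg hA hMj.1),
                show -(1 / 2) * (2 * γ) = -γ by ring, show 1 / 2 * (2 * γ) = γ by ring,
                Real.mul_rpow hL.le (by positivity), Real.mul_rpow hA hMj.1]
              ring
    rw [Finset.sum_coe_sort I fun j : ℤ => (Real.exp 4 *
      (4 * r ^ 4 + 4 * ((i : ℤ) * L - j * L) ^ 2) ^ (-(1 / 4) : ℝ) * √(M i * M j)) ^ (1 / q)]
    refine (Finset.sum_le_sum term).trans ?_
    rw [← Finset.mul_sum, Finset.sum_add_distrib, Finset.sum_ite_eq' I, if_pos i.2,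
      ← Finset.mul_sum, hD]
    refine mul_le_mul_of_nonneg_left (add_le_add le_rfl ?_) (by positivity)
    refine (mul_le_mul_of_nonneg_left hrow (by positivity)).trans (le_of_eq (by ring))

end Crest.Agent.N76.II
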