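import Crest.Agent.N76.St.Abs

/-!
# Row 76: Bessel's inequality from Schur's test (continuous `TT*`), and the row sums of lemma St
-/

set_option autoImplicit false

open MeasureTheory Finset
open scoped ENNReal InnerProductSpace

namespace Crest.Agent.N76.St

variable {H : Type*} [NormedAddCommGroup H] [InnerProductSpace ℂ H] [CompleteSpace H]
  {Y : Type*} [MeasurableSpace Y] {μ : Measure Y}

omit [CompleteSpace H] in
lemma ofReal_en_sq {G : Y → H} {B : ℝ} {E : Set Y} (hG : AEStronglyMeasurable G μ)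
    (hB : ∀ y, ‖G y‖ ≤ B) (hE : μ E ≠ ∞) (h : H) :
    ENNReal.ofReal (en μ G h E ^ 2) = ∫⁻ y in E, ‖⟪G y, h⟫_ℂ‖ₑ ^ 2 ∂μ := by
  rw [en_sq, ofReal_integral_eq_lintegral_ofReal (int_coef hG hB hE h 2)
    (.of_forall fun _ => by positivity)]
  simp only [← ofReal_norm, ENNReal.ofReal_pow (norm_nonneg _)]

/-- **continuous `TT*` / Schur test**: a bound for the rows of the Gram kernel gives Bessel's
inequality -/
theorem bessel_of_schur [SigmaFinite μ] {G : Y → H} {B D : ℝ} (hG : StronglyMeasurable G)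
    (hB : ∀ y, ‖G y‖ ≤ B) (hD : 0 ≤ D)
    (hrow : ∀ y, ∫⁻ y', ‖⟪G y, G y'⟫_ℂ‖ₑ ∂μ ≤ ENNReal.ofReal D) (h : H) :
    ∫⁻ y, ‖⟪G y, h⟫_ℂ‖ₑ ^ 2 ∂μ ≤ ENNReal.ofReal (D * ‖h‖ ^ 2) := by
  have hG' : AEStronglyMeasurable G μ := hG.aestronglyMeasurable
  have hc : Measurable fun y => ‖⟪G y, h⟫_ℂ‖ₑ := (hG.inner stronglyMeasurable_const).enorm
  have hk : Measurable fun z : Y × Y => ‖⟪G z.1, G z.2⟫_ℂ‖ₑ :=
    ((hG.comp_measurable measurable_fst).inner (hG.comp_measurable measurable_snd)).enorm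
  have key : ∀ E : Set Y, μ E ≠ ∞ → en μ G h E ^ 2 ≤ D * ‖h‖ ^ 2 := by
    intro E hE
    set Φ := syn μ G h E with hΦ
    set S := en μ G h E ^ 2 with hS
    have hS0 : 0 ≤ S := sq_nonneg _
    have h1 : S ≤ ‖Φ‖ * ‖h‖ := by
      rw [hS, ← re_inner_syn hG' hB hE]
      exact (Complex.re_le_norm _).trans (norm_inner_le_norm (𝕜 := ℂ) Φ h)
    have h2 : ∀ g : H, ‖⟪g, Φ⟫_ℂ‖ₑ ≤ ∫⁻ y in E, ‖⟪G y, h⟫_ℂ‖ₑ * ‖⟪g, G y⟫_ℂ‖ₑ ∂μ := fun g => by
      rw [hΦ, inner_syn hG' hB hE]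
      simpa only [enorm_mul] using
        enorm_integral_le_lintegral_enorm (μ := μ.restrict E) fun y => ⟪G y, h⟫_ℂ * ⟪g, G y⟫_ℂ
    have h3 : ∫⁻ y in E, ∫⁻ y' in E, ‖⟪G y, h⟫_ℂ‖ₑ ^ 2 * ‖⟪G y, G y'⟫_ℂ‖ₑ ∂μ ∂μ ≤
        ENNReal.ofReal (D * S) := by
      rw [ENNReal.ofReal_mul hD, hS, ofReal_en_sq hG' hB hE, mul_comm,
        ← lintegral_mul_const _ (hc.pow_const 2)]
      refine lintegral_mono fun y => ?_
      rw [lintegral_const_mul' _ _ (by simp)]
      exact mul_le_mul_right ((lintegral_mono' Measure.restrict_le_self le_rfl).trans (hrow y)) _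
    have h4 : ∫⁻ y in E, ∫⁻ y' in E, ‖⟪G y', h⟫_ℂ‖ₑ ^ 2 * ‖⟪G y, G y'⟫_ℂ‖ₑ ∂μ ∂μ ≤
        ENNReal.ofReal (D * S) := by
      rw [lintegral_lintegral_swap (((hc.comp measurable_snd).pow_const 2).mul hk).aemeasurable]
      refine le_trans (le_of_eq ?_) h3
      refine lintegral_congr fun y => lintegral_congr fun y' => ?_
      rw [← ofReal_norm ⟪G y', G y⟫_ℂ, norm_inner_symm, ofReal_norm]
    have h5 : 2 * ‖⟪Φ, Φ⟫_ℂ‖ₑ ≤ ENNReal.ofReal (D * S) + ENNReal.ofReal (D * S) := by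
      refine le_trans ?_ (add_le_add h3 h4)
      have m1 : Measurable fun y => ∫⁻ y' in E, ‖⟪G y, h⟫_ℂ‖ₑ ^ 2 * ‖⟪G y, G y'⟫_ℂ‖ₑ ∂μ :=
        (((hc.comp measurable_fst).pow_const 2).mul hk).lintegral_prod_right'
      have m2 : ∀ y, Measurable fun y' => ‖⟪G y, h⟫_ℂ‖ₑ ^ 2 * ‖⟪G y, G y'⟫_ℂ‖ₑ := fun y =>
        (hk.comp measurable_prodMk_left).const_mul _
      rw [← lintegral_add_left m1]
      refine (mul_le_mul_right (h2 Φ) _).trans ?_
      rw [← lintegral_const_mul' _ _ (by simp)]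
      refine lintegral_mono fun y => ?_
      simp only
      rw [← lintegral_add_left (m2 y),
        ← ofReal_norm ⟪Φ, G y⟫_ℂ, norm_inner_symm, ofReal_norm]
      refine (mul_le_mul_right (mul_le_mul_right (h2 (G y)) _) _).trans ?_
      rw [← lintegral_const_mul' _ _ (by simp), ← lintegral_const_mul' _ _ (by simp)]
      refine lintegral_mono fun y' => ?_
      simp only
      rw [← add_mul, ← mul_assoc, ← mul_assoc]
      refine mul_le_mul_left ?_ _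
      simp only [enorm_eq_nnnorm]
      norm_cast
      exact two_mul_le_add_sq _ _
    have h6 : ‖Φ‖ ^ 2 ≤ D * S := by
      rw [← two_mul, ENNReal.mul_le_mul_iff_right two_ne_zero (by simp), ← ofReal_norm,
        ENNReal.ofReal_le_ofReal_iff (by positivity), inner_self_eq_norm_sq_to_K] at h5
      simpa using h5
    rcases hS0.eq_or_lt with h0 | h0
    · rw [← h0]; positivity
    · have h7 : S ^ 2 ≤ D * S * ‖h‖ ^ 2 :=
        calc S ^ 2 ≤ (‖Φ‖ * ‖h‖) ^ 2 := by gcongr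
          _ = ‖Φ‖ ^ 2 * ‖h‖ ^ 2 := by ring
          _ ≤ _ := by gcongr
      nlinarith
  rw [← setLIntegral_univ, ← iUnion_spanningSets μ,
    setLIntegral_iUnion_of_directed _ (monotone_spanningSets μ).directed_le]
  refine iSup_le fun m => ?_
  rw [← ofReal_en_sq hG' hB (measure_spanningSets_lt_top μ m).ne]
  exact ENNReal.ofReal_le_ofReal (key _ (measure_spanningSets_lt_top μ m).ne)

lemma sum_range_rpow_le {s : ℝ} (hs0 : 0 ≤ s) (hs1 : s < 1) (N : ℕ) :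
    ∑ m ∈ range N, ((m : ℝ) + 1) ^ (-s) ≤ (N : ℝ) ^ (1 - s) / (1 - s) := by
  have h1 : 0 < 1 - s := by linarith
  induction N with
  | zero => simp [Real.zero_rpow h1.ne']
  | succ N ih =>
    rw [sum_range_succ, le_div_iff₀ h1, add_mul]
    rw [le_div_iff₀ h1] at ih
    have hN : (0 : ℝ) < (N : ℝ) + 1 := by positivity
    have h2 := rpow_one_add_le_one_add_mul_self (s := -(1 / ((N : ℝ) + 1))) (p := 1 - s)
      (by rw [neg_le_neg_iff, div_le_one hN]; linarith [Nat.cast_nonneg (α := ℝ) N]) h1.le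
      (by linarith)
    have h3 : (N : ℝ) ^ (1 - s) = ((N : ℝ) + 1) ^ (1 - s) * (1 + -(1 / ((N : ℝ) + 1))) ^ (1 - s) := by
      rw [← Real.mul_rpow hN.le (by field_simp; ring_nf; positivity)]
      congr 1; field_simp; ring
    have h4 : ((N : ℝ) + 1) ^ (1 - s) = ((N : ℝ) + 1) * ((N : ℝ) + 1) ^ (-s) := by
      rw [sub_eq_add_neg, Real.rpow_add hN, Real.rpow_one]
    have h5 : (0 : ℝ) < ((N : ℝ) + 1) ^ (-s) := by positivity
    have h6 : (N : ℝ) ^ (1 - s) ≤ ((N : ℝ) + 1) ^ (1 - s) - ((N : ℝ) + 1) ^ (-s) * (1 - s) := by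
      rw [h3]
      refine (mul_le_mul_of_nonneg_left h2 (by positivity)).trans (le_of_eq ?_)
      rw [h4]; field_simp; ring
    push_cast
    linarith

lemma sum_fin_rpow_le {s : ℝ} (hs0 : 0 ≤ s) (hs1 : s < 1) {N : ℕ} (i : Fin N) :
    ∑ j : Fin N, (1 + |(i : ℝ) - j|) ^ (-s) ≤ 2 * ((N : ℝ) ^ (1 - s) / (1 - s)) := by
  have key : ∀ (t : Finset (Fin N)) (φ : Fin N → ℕ), Set.InjOn φ t → (∀ j, φ j < N) →
      (∀ j ∈ t, |(i : ℝ) - j| = φ j) →
      ∑ j ∈ t, (1 + |(i : ℝ) - j|) ^ (-s) ≤ (N : ℝ) ^ (1 - s) / (1 - s) := by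
    intro t φ h1 h2 h3
    rw [sum_congr rfl fun j hj => by rw [h3 j hj, add_comm],
      ← sum_image (f := fun m : ℕ => ((m : ℝ) + 1) ^ (-s)) h1]
    refine le_trans (sum_le_sum_of_subset_of_nonneg (fun m hm => ?_) fun _ _ _ => by positivity)
      (sum_range_rpow_le hs0 hs1 N)
    obtain ⟨j, -, rfl⟩ := mem_image.1 hm
    exact mem_range.2 (h2 j)
  rw [← sum_filter_add_sum_filter_not univ fun j : Fin N => (j : ℕ) ≤ i, two_mul]
  refine add_le_add (key _ (fun j => i - j) ?_ (fun j => by omega) fun j hj => ?_)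
    (key _ (fun j => j - i) ?_ (fun j => by omega) fun j hj => ?_)
  · intro a ha b hb hab
    have := (mem_filter.1 ha).2
    have := (mem_filter.1 hb).2
    simp only at hab
    exact Fin.ext (by omega)
  · have := (mem_filter.1 hj).2
    rw [Nat.cast_sub this, abs_of_nonneg (sub_nonneg.2 (by exact_mod_cast this))]
  · intro a ha b hb hab
    have := (mem_filter.1 ha).2
    have := (mem_filter.1 hb).2
    simp only at hab
    exact Fin.ext (by omega)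
  · have := le_of_not_ge (mem_filter.1 hj).2
    rw [Nat.cast_sub this, abs_of_nonpos (sub_nonpos.2 (by exact_mod_cast this)), neg_sub]

/-- the row sums of lemma St, with the gain `(average of M) ^ γ` -/
lemma row_sum_le {γ : ℝ} (h0 : 0 < γ) (h1 : γ < 1 / 2) : ∃ C : ℝ, 0 < C ∧
    ∀ (N : ℕ) (M : Fin N → ℝ) (i : Fin N), (∀ j, 0 ≤ M j) →
      ∑ j : Fin N, (1 + |(i : ℝ) - j|) ^ (-γ) * M j ^ γ ≤
        C * (N : ℝ) ^ (1 - γ) * ((∑ j, M j) / N) ^ γ := by
  have h2 : 0 < 1 - γ := by linarith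
  set s : ℝ := γ / (1 - γ) with hs
  have hs0 : 0 ≤ s := by positivity
  have hs1 : s < 1 := by rw [hs, div_lt_one h2]; linarith
  have hs2 : 0 < 1 - s := by linarith
  refine ⟨(2 / (1 - s)) ^ (1 - γ), by positivity, fun N M i hM => ?_⟩
  have hN : (0 : ℝ) < N := by exact_mod_cast i.pos
  have hpq : (1 - γ)⁻¹.HolderConjugate γ⁻¹ := Real.HolderConjugate.one_sub_inv_inv h0 (by linarith)
  refine (Real.inner_le_Lp_mul_Lq_of_nonneg univ hpq (fun _ _ => by positivity)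
    fun j _ => Real.rpow_nonneg (hM j) _).trans ?_
  have e1 : ∀ j : Fin N, ((1 + |(i : ℝ) - j|) ^ (-γ)) ^ (1 - γ)⁻¹ = (1 + |(i : ℝ) - j|) ^ (-s) :=
    fun j => by rw [← Real.rpow_mul (by positivity), hs]; congr 1; ring
  have e2 : ∀ j, (M j ^ γ) ^ γ⁻¹ = M j := fun j => Real.rpow_rpow_inv (hM j) h0.ne'
  have hS : 0 ≤ ∑ j, M j := sum_nonneg fun j _ => hM j
  simp only [e1, e2, one_div, inv_inv]
  calc _ ≤ (2 * ((N : ℝ) ^ (1 - s) / (1 - s))) ^ (1 - γ) * (∑ j, M j) ^ γ := by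
        gcongr
        exact sum_fin_rpow_le hs0 hs1 i
    _ = _ := by
        rw [show 2 * ((N : ℝ) ^ (1 - s) / (1 - s)) = 2 / (1 - s) * (N : ℝ) ^ (1 - s) by ring,
          Real.mul_rpow (by positivity) (by positivity), ← Real.rpow_mul hN.le,
          Real.div_rpow hS hN.le,
          show (1 - s) * (1 - γ) = (1 - γ) - γ by rw [hs]; field_simp, Real.rpow_sub hN (1 - γ)]
        ring

end Crest.Agent.N76.St
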